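import Crest.Agent.X212.Nt64.Ntg
import Crest.Agent.X212.Cqn41.NrA
import Crest.Agent.X212.Cqn41.Nr1
import Crest.Agent.X212.Cqn41.Nr2
import Crest.Agent.X212.Nr55.Lf0
import Crest.Agent.X212.Nt9.Td
import Crest.Agent.X212.Mp86.LabA
import Crest.Agent.X212.Mp86.LabB
import Crest.Agent.X212.Mp86.Lab
import Crest.Agent.X212.Nt93.MvD
import Crest.Agent.X212.Nt93.Hit
import Crest.Agent.X212.Nt93.Job
import Crest.Agent.X212.Ulc97.MvA
import Crest.Agent.X212.Ulc97.MvB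
import Crest.Agent.X212.Ulc97.Mv
import Crest.Agent.X212.Nr78.Fam
import Crest.Agent.X212.Nr78.Alt
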